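import Mathlib

/-!
# Wagner's step, row [TRI-K5]

Six parts `A 0, A 1, A 2`, `B 0, B 1, B 2`, every `A i` touches every `B j`. A part `A a` is a
*triangle* if it is the union of three connected pairwise disjoint pairwise adjacent sets
`U 0, U 1, U 2`, `U j` touching no `B j'` but `B j`. If `A a` is a triangle and a part `B b` is a
triangle too, or has a fat split (two connected pieces, each touching two of the `A i`), then `G`
has a `K₅` minor.
-/

namespace Vale.Agent.P235.K5.W.H262

open SimpleGraph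

variable {V : Type} {G : SimpleGraph V}

/-- an edge of `G` between `X` and `Y` -/
abbrev Touch (G : SimpleGraph V) (X Y : Set V) : Prop := ∃ x ∈ X, ∃ y ∈ Y, G.Adj x y

theorem touch_symm {X Y : Set V} (h : Touch G X Y) : Touch G Y X := by
  obtain ⟨x, hx, y, hy, hxy⟩ := h
  exact ⟨y, hy, x, hx, hxy.symm⟩

theorem touch_mono {X Y X' Y' : Set V} (h : Touch G X Y) (hX : X ⊆ X') (hY : Y ⊆ Y') :
    Touch G X' Y' := by
  obtain ⟨x, hx, y, hy, hxy⟩ := h
  exact ⟨x, hX hx, y, hY hy, hxy⟩

theorem conn_union {X Y : Set V} (hX : (G.induce X).Connected) (hY : (G.induce Y).Connected)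
    (h : Touch G X Y) : (G.induce (X ∪ Y)).Connected := by
  obtain ⟨x, hx, y, hy, hxy⟩ := h
  exact connected_induce_union hX.preconnected hY.preconnected hx hy hxy

/-- the branch sets of a `K₅` model may be indexed by any type with five elements -/
theorem five_of {κ : Type} [Fintype κ] (hκ : Fintype.card κ = 5) (M : κ → Set V)
    (c : ∀ k, (G.induce (M k)).Connected) (d : ∀ k l, k ≠ l → Disjoint (M k) (M l))
    (t : ∀ k l, k ≠ l → Touch G (M k) (M l)) :
    ∃ μ : Fin 5 → Set V, (∀ a, (G.induce (μ a)).Connected) ∧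
      (∀ a b, a ≠ b → Disjoint (μ a) (μ b)) ∧ ∀ a b, a ≠ b → Touch G (μ a) (μ b) := by
  let e : Fin 5 ≃ κ := (Fintype.equivFinOfCardEq hκ).symm
  refine ⟨fun i => M (e i), fun i => c _, fun i j hij => d _ _ fun h => hij (e.injective h),
    fun i j hij => t _ _ fun h => hij (e.injective h)⟩

/-- two pieces of a connected set touch -/
theorem touch_split {X P Q : Set V} (hX : (G.induce X).Connected) (hXPQ : X ⊆ P ∪ Q)
    (hP : P ⊆ X) (hQ : Q ⊆ X) (hPn : P.Nonempty) (hQn : Q.Nonempty) (hd : Disjoint P Q) :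
    Touch G P Q := by
  obtain ⟨p, hp⟩ := hPn
  obtain ⟨q, hq⟩ := hQn
  obtain ⟨w⟩ := hX.preconnected ⟨p, hP hp⟩ ⟨q, hQ hq⟩
  obtain ⟨d, -, h1, h2⟩ := w.exists_boundary_dart {v | v.1 ∈ P} hp
    (fun h => Set.disjoint_left.1 hd h hq)
  refine ⟨d.fst.1, h1, d.snd.1, ?_, ?_⟩
  · rcases hXPQ d.snd.2 with h | h
    · exact absurd h h2
    · exact h
  · exact d.adj

theorem three : ∀ x y z : Fin 3, x ≠ y → x ≠ z → y ≠ z → ∀ k, k = x ∨ k = y ∨ k = z := by
  decide

theorem third : ∀ x y : Fin 3, ∃ z, z ≠ x ∧ z ≠ y := by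
  decide

theorem pick_same (p q : Fin 3 → Prop) (h : ∀ k, p k ∨ q k) (i i' : Fin 3) (hi : i ≠ i')
    (h1 : p i) (h2 : p i') (h3 : q i) (h4 : q i') :
    ∃ x y z : Fin 3, x ≠ y ∧ x ≠ z ∧ y ≠ z ∧ p x ∧ p z ∧ q y ∧ q z := by
  obtain ⟨c, hc, hc'⟩ := third i i'
  rcases h c with hp | hq
  · exact ⟨c, i', i, hc', hc, hi.symm, hp, h1, h4, h3⟩
  · exact ⟨i', c, i, hc'.symm, hi.symm, hc, h2, h1, hq, h3⟩

theorem pick (p q : Fin 3 → Prop) (hp : ∃ i i', i ≠ i' ∧ p i ∧ p i')
    (hq : ∃ i i', i ≠ i' ∧ q i ∧ q i') (h : ∀ k, p k ∨ q k) :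
    ∃ x y z : Fin 3, x ≠ y ∧ x ≠ z ∧ y ≠ z ∧ p x ∧ p z ∧ q y ∧ q z := by
  obtain ⟨i, i', hi, pi, pi'⟩ := hp
  obtain ⟨j, j', hj, qj, qj'⟩ := hq
  by_cases e1 : j = i
  · subst e1
    by_cases e2 : j' = i'
    · subst e2
      exact pick_same p q h j j' hi pi pi' qj qj'
    · exact ⟨i', j', j, fun e => e2 e.symm, hi.symm, hj.symm, pi', pi, qj', qj⟩
  · by_cases e2 : j = i'
    · subst e2
      by_cases e3 : j' = i
      · subst e3
        exact pick_same p q h j' j hi pi pi' qj' qj
      · exact ⟨i, j', j, fun e => e3 e.symm, hi, hj.symm, pi, pi', qj', qj⟩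
    · have := three i i' j hi (fun e => e1 e.symm) (fun e => e2 e.symm) j'
      rcases this with e | e | e
      · subst e
        exact ⟨i', j, j', fun e => e2 e.symm, hi.symm, e1, pi', pi, qj, qj'⟩
      · subst e
        exact ⟨i, j, j', fun e => e1 e.symm, hi, e2, pi, pi', qj, qj'⟩
      · exact absurd e.symm hj

section

variable (A B : Fin 3 → Set V)
  (cA : ∀ i, (G.induce (A i)).Connected) (cB : ∀ j, (G.induce (B j)).Connected)
  (dA : ∀ i i', i ≠ i' → Disjoint (A i) (A i')) (dB : ∀ j j', j ≠ j' → Disjoint (B j) (B j'))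
  (dAB : ∀ i j, Disjoint (A i) (B j)) (tAB : ∀ i j, Touch G (A i) (B j))

include tAB in
/-- the piece `U j` of a triangle touches `B j` -/
theorem tri_touch (a : Fin 3) (U : Fin 3 → Set V) (cov : A a ⊆ ⋃ j, U j)
    (only : ∀ j j', Touch G (U j) (B j') → j = j') (j : Fin 3) : Touch G (U j) (B j) := by
  obtain ⟨x, hx, y, hy, hxy⟩ := tAB a j
  obtain ⟨j', hj'⟩ := Set.mem_iUnion.1 (cov hx)
  have e : j' = j := only j' j ⟨x, hj', y, hy, hxy⟩
  subst e
  exact ⟨x, hj', y, hy, hxy⟩

include cA cB dA dB dAB tAB in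
/-- **[TRI-K5], (c) + (c)**: a triangle part `A a` and a triangle part `B b` give a `K₅` minor. -/
theorem tri_tri (a b : Fin 3) (U W : Fin 3 → Set V)
    (hU : ∀ j, U j ⊆ A a) (cU : ∀ j, (G.induce (U j)).Connected)
    (dU : ∀ j j', j ≠ j' → Disjoint (U j) (U j')) (tU : ∀ j j', j ≠ j' → Touch G (U j) (U j'))
    (covU : A a ⊆ ⋃ j, U j) (onlyU : ∀ j j', Touch G (U j) (B j') → j = j')
    (hW : ∀ i, W i ⊆ B b) (cW : ∀ i, (G.induce (W i)).Connected)
    (dW : ∀ i i', i ≠ i' → Disjoint (W i) (W i')) (tW : ∀ i i', i ≠ i' → Touch G (W i) (W i'))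
    (covW : B b ⊆ ⋃ i, W i) (onlyW : ∀ i i', Touch G (W i) (A i') → i = i') :
    ∃ μ : Fin 5 → Set V, (∀ a, (G.induce (μ a)).Connected) ∧
      (∀ a b, a ≠ b → Disjoint (μ a) (μ b)) ∧ ∀ a b, a ≠ b → Touch G (μ a) (μ b) := by
  classical
  have tUB : ∀ j, Touch G (U j) (B j) := tri_touch A B tAB a U covU onlyU
  have tWA : ∀ i, Touch G (W i) (A i) :=
    tri_touch B A (fun j i => touch_symm (tAB i j)) b W covW onlyW
  have tUW : Touch G (U b) (W a) := by
    obtain ⟨x, hx, y, hy, hxy⟩ := tAB a b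
    obtain ⟨j, hj⟩ := Set.mem_iUnion.1 (covU hx)
    obtain ⟨i, hi⟩ := Set.mem_iUnion.1 (covW hy)
    have e1 : j = b := onlyU j b ⟨x, hj, y, hy, hxy⟩
    have e2 : i = a := onlyW i a ⟨y, hi, x, hx, hxy.symm⟩
    subst e1 e2
    exact ⟨x, hj, y, hi, hxy⟩
  have dUW : ∀ j i, Disjoint (U j) (W i) := fun j i => (dAB a b).mono (hU j) (hW i)
  have dUB : ∀ j j', Disjoint (U j) (B j') := fun j j' => (dAB a j').mono_left (hU j)
  have dWA : ∀ i i', Disjoint (W i) (A i') := fun i i' => (dAB i' b).symm.mono_left (hW i)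
  have dUA : ∀ j i, i ≠ a → Disjoint (U j) (A i) := fun j i h => (dA a i h.symm).mono_left (hU j)
  have dWB : ∀ i j, j ≠ b → Disjoint (W i) (B j) := fun i j h => (dB b j h.symm).mono_left (hW i)
  let M : Option ({j : Fin 3 // j ≠ b} ⊕ {i : Fin 3 // i ≠ a}) → Set V := fun k =>
    match k with
    | none => U b ∪ W a
    | some (Sum.inl j) => U j.1 ∪ B j.1
    | some (Sum.inr i) => W i.1 ∪ A i.1
  have hcard : ∀ c : Fin 3, Fintype.card {j : Fin 3 // j ≠ c} = 2 := by
    intro c
    fin_cases c <;> rfl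
  refine five_of (κ := Option ({j : Fin 3 // j ≠ b} ⊕ {i : Fin 3 // i ≠ a})) ?_ M ?_ ?_ ?_
  · rw [Fintype.card_option, Fintype.card_sum, hcard, hcard]
  · rintro (_ | (j | i))
    · exact conn_union (cU b) (cW a) tUW
    · exact conn_union (cU j.1) (cB j.1) (tUB j.1)
    · exact conn_union (cW i.1) (cA i.1) (tWA i.1)
  · have h1 : ∀ j : {j : Fin 3 // j ≠ b}, Disjoint (U b ∪ W a) (U j.1 ∪ B j.1) := by
      intro j
      rw [Set.disjoint_union_left, Set.disjoint_union_right, Set.disjoint_union_right]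
      exact ⟨⟨dU b j.1 (fun h => j.2 h.symm), dUB _ _⟩, (dUW _ _).symm, dWB _ _ j.2⟩
    have h2 : ∀ i : {i : Fin 3 // i ≠ a}, Disjoint (U b ∪ W a) (W i.1 ∪ A i.1) := by
      intro i
      rw [Set.disjoint_union_left, Set.disjoint_union_right, Set.disjoint_union_right]
      exact ⟨⟨dUW _ _, dUA _ _ i.2⟩, dW a i.1 (fun h => i.2 h.symm), dWA _ _⟩
    have h3 : ∀ (j : {j : Fin 3 // j ≠ b}) (i : {i : Fin 3 // i ≠ a}),
        Disjoint (U j.1 ∪ B j.1) (W i.1 ∪ A i.1) := by
      intro j i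
      rw [Set.disjoint_union_left, Set.disjoint_union_right, Set.disjoint_union_right]
      exact ⟨⟨dUW _ _, dUA _ _ i.2⟩, (dWB _ _ j.2).symm, (dAB _ _).symm⟩
    rintro (_ | (j | i)) (_ | (j' | i')) hne
    · exact absurd rfl hne
    · exact h1 j'
    · exact h2 i'
    · exact (h1 j).symm
    · have hjj : j.1 ≠ j'.1 := fun h => hne (by rw [Subtype.ext h])
      show Disjoint (U j.1 ∪ B j.1) (U j'.1 ∪ B j'.1)
      rw [Set.disjoint_union_left, Set.disjoint_union_right, Set.disjoint_union_right]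
      exact ⟨⟨dU _ _ hjj, dUB _ _⟩, (dUB _ _).symm, dB _ _ hjj⟩
    · exact h3 j i'
    · exact (h2 i).symm
    · exact (h3 j' i).symm
    · have hii : i.1 ≠ i'.1 := fun h => hne (by rw [Subtype.ext h])
      show Disjoint (W i.1 ∪ A i.1) (W i'.1 ∪ A i'.1)
      rw [Set.disjoint_union_left, Set.disjoint_union_right, Set.disjoint_union_right]
      exact ⟨⟨dW _ _ hii, dWA _ _⟩, (dWA _ _).symm, dA _ _ hii⟩
  · have h1 : ∀ j : {j : Fin 3 // j ≠ b}, Touch G (U b ∪ W a) (U j.1 ∪ B j.1) := fun j =>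
      touch_mono (tU b j.1 (fun h => j.2 h.symm)) Set.subset_union_left Set.subset_union_left
    have h2 : ∀ i : {i : Fin 3 // i ≠ a}, Touch G (U b ∪ W a) (W i.1 ∪ A i.1) := fun i =>
      touch_mono (tW a i.1 (fun h => i.2 h.symm)) Set.subset_union_right Set.subset_union_left
    have h3 : ∀ (j : {j : Fin 3 // j ≠ b}) (i : {i : Fin 3 // i ≠ a}),
        Touch G (U j.1 ∪ B j.1) (W i.1 ∪ A i.1) := fun j i =>
      touch_mono (touch_symm (tAB i.1 j.1)) Set.subset_union_right Set.subset_union_right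
    rintro (_ | (j | i)) (_ | (j' | i')) hne
    · exact absurd rfl hne
    · exact h1 j'
    · exact h2 i'
    · exact touch_symm (h1 j)
    · exact touch_mono (tU j.1 j'.1 (fun h => hne (by rw [Subtype.ext h])))
        Set.subset_union_left Set.subset_union_left
    · exact h3 j i'
    · exact touch_symm (h2 i)
    · exact touch_symm (h3 j' i)
    · exact touch_mono (tW i.1 i'.1 (fun h => hne (by rw [Subtype.ext h])))
        Set.subset_union_left Set.subset_union_left

include cA cB dA dB dAB tAB in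
/-- **[TRI-K5], (c) + (b)**: a triangle part `A a` and a part `B b` with a fat split give a `K₅`
minor. -/
theorem tri_fat (a b : Fin 3) (U : Fin 3 → Set V)
    (hU : ∀ j, U j ⊆ A a) (cU : ∀ j, (G.induce (U j)).Connected)
    (dU : ∀ j j', j ≠ j' → Disjoint (U j) (U j')) (tU : ∀ j j', j ≠ j' → Touch G (U j) (U j'))
    (covU : A a ⊆ ⋃ j, U j) (onlyU : ∀ j j', Touch G (U j) (B j') → j = j')
    (P Q : Set V) (hP : P ⊆ B b) (hQ : Q ⊆ B b) (covB : B b ⊆ P ∪ Q) (dPQ : Disjoint P Q)
    (cP : (G.induce P).Connected) (cQ : (G.induce Q).Connected)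
    (fP : ∃ i i', i ≠ i' ∧ Touch G P (A i) ∧ Touch G P (A i'))
    (fQ : ∃ i i', i ≠ i' ∧ Touch G Q (A i) ∧ Touch G Q (A i')) :
    ∃ μ : Fin 5 → Set V, (∀ a, (G.induce (μ a)).Connected) ∧
      (∀ a b, a ≠ b → Disjoint (μ a) (μ b)) ∧ ∀ a b, a ≠ b → Touch G (μ a) (μ b) := by
  classical
  have tUB : ∀ j, Touch G (U j) (B j) := tri_touch A B tAB a U covU onlyU
  have hPn : P.Nonempty := by
    obtain ⟨⟨x, hx⟩⟩ := cP.nonempty
    exact ⟨x, hx⟩
  have hQn : Q.Nonempty := by
    obtain ⟨⟨x, hx⟩⟩ := cQ.nonempty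
    exact ⟨x, hx⟩
  have tPQ : Touch G P Q := touch_split (cB b) covB hP hQ hPn hQn dPQ
  have hall : ∀ k, Touch G P (A k) ∨ Touch G Q (A k) := by
    intro k
    obtain ⟨x, hx, y, hy, hxy⟩ := tAB k b
    rcases covB hy with h | h
    · exact Or.inl ⟨y, h, x, hx, hxy.symm⟩
    · exact Or.inr ⟨y, h, x, hx, hxy.symm⟩
  obtain ⟨x, y, z, hxy, hxz, hyz, px, pz, qy, qz⟩ :=
    pick (fun k => Touch G P (A k)) (fun k => Touch G Q (A k)) fP fQ hall
  have hthree : ∀ k : Fin 3, k = x ∨ k = y ∨ k = z := three x y z hxy hxz hyz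
  -- the three enlarged sets
  let X : Fin 3 → Set V := fun k => if k = a then U b else A k
  have Xa : X a = U b := if_pos rfl
  have Xn : ∀ k, k ≠ a → X k = A k := fun k h => if_neg h
  have XA : ∀ k, X k ⊆ A k := by
    intro k
    by_cases h : k = a
    · subst h
      rw [Xa]
      exact hU b
    · rw [Xn k h]
  have cX : ∀ k, (G.induce (X k)).Connected := by
    intro k
    by_cases h : k = a
    · subst h
      rw [Xa]
      exact cU b
    · rw [Xn k h]
      exact cA k
  -- contacts with `B b` are in `X`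
  have tX : ∀ (R : Set V), R ⊆ B b → ∀ k, Touch G R (A k) → Touch G R (X k) := by
    intro R hR k h
    by_cases hk : k = a
    · subst hk
      obtain ⟨r, hr, v, hv, hrv⟩ := h
      obtain ⟨j, hj⟩ := Set.mem_iUnion.1 (covU hv)
      have e : j = b := onlyU j b ⟨v, hj, r, hR hr, hrv.symm⟩
      subst e
      rw [Xa]
      exact ⟨r, hr, v, hj, hrv⟩
    · rw [Xn k hk]
      exact h
  have dX : ∀ k k', k ≠ k' → Disjoint (X k) (X k') := fun k k' h =>
    (dA k k' h).mono (XA k) (XA k')
  let E : Fin 3 → Set V := fun k =>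
    X k ∪ ((if k = x then P else ∅) ∪ (if k = y then Q else ∅))
  have Ex : E x = X x ∪ P := by
    show X x ∪ ((if x = x then P else ∅) ∪ (if x = y then Q else ∅)) = X x ∪ P
    rw [if_pos rfl, if_neg hxy, Set.union_empty]
  have Ey : E y = X y ∪ Q := by
    show X y ∪ ((if y = x then P else ∅) ∪ (if y = y then Q else ∅)) = X y ∪ Q
    rw [if_pos rfl, if_neg hxy.symm, Set.empty_union]
  have Ez : E z = X z := by
    show X z ∪ ((if z = x then P else ∅) ∪ (if z = y then Q else ∅)) = X z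
    rw [if_neg hxz.symm, if_neg hyz.symm, Set.union_empty, Set.union_empty]
  have XE : ∀ k, X k ⊆ E k := fun k => Set.subset_union_left
  have EB : ∀ k, E k ⊆ X k ∪ B b := by
    intro k v hv
    rcases hv with h | h | h
    · exact Or.inl h
    · by_cases e : k = x
      · rw [if_pos e] at h
        exact Or.inr (hP h)
      · rw [if_neg e] at h
        exact absurd h (Set.notMem_empty _)
    · by_cases e : k = y
      · rw [if_pos e] at h
        exact Or.inr (hQ h)
      · rw [if_neg e] at h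
        exact absurd h (Set.notMem_empty _)
  have dXB : ∀ (k j : Fin 3) (R : Set V), R ⊆ B j → Disjoint (X k) R := fun k j R hR =>
    (dAB k j).mono (XA k) hR
  have exy : Disjoint (E x) (E y) := by
    rw [Ex, Ey, Set.disjoint_union_left, Set.disjoint_union_right, Set.disjoint_union_right]
    exact ⟨⟨dX _ _ hxy, dXB _ b Q hQ⟩, (dXB _ b P hP).symm, dPQ⟩
  have exz : Disjoint (E x) (E z) := by
    rw [Ex, Ez, Set.disjoint_union_left]
    exact ⟨dX _ _ hxz, (dXB _ b P hP).symm⟩
  have eyz : Disjoint (E y) (E z) := by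
    rw [Ey, Ez, Set.disjoint_union_left]
    exact ⟨dX _ _ hyz, (dXB _ b Q hQ).symm⟩
  have txy : Touch G (E x) (E y) := by
    rw [Ex, Ey]
    exact touch_mono tPQ Set.subset_union_right Set.subset_union_right
  have txz : Touch G (E x) (E z) := by
    rw [Ex, Ez]
    exact touch_mono (tX P hP z pz) Set.subset_union_right subset_rfl
  have tyz : Touch G (E y) (E z) := by
    rw [Ey, Ez]
    exact touch_mono (tX Q hQ z qz) Set.subset_union_right subset_rfl
  have EUB : ∀ (k : Fin 3) (j : {j : Fin 3 // j ≠ b}), Disjoint (E k) (U j.1 ∪ B j.1) := by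
    intro k j
    refine Set.disjoint_of_subset_left (EB k) ?_
    rw [Set.disjoint_union_left, Set.disjoint_union_right, Set.disjoint_union_right]
    refine ⟨⟨?_, dXB k j.1 _ subset_rfl⟩, (dAB a b).symm.mono_right (hU j.1),
      dB b j.1 (fun h => j.2 h.symm)⟩
    by_cases h : k = a
    · subst h
      rw [Xa]
      exact dU b j.1 (fun h => j.2 h.symm)
    · rw [Xn k h]
      exact (dA k a h).mono_right (hU j.1)
  have tEUB : ∀ (k : Fin 3) (j : {j : Fin 3 // j ≠ b}), Touch G (E k) (U j.1 ∪ B j.1) := by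
    intro k j
    by_cases h : k = a
    · subst h
      refine touch_mono (tU b j.1 (fun h => j.2 h.symm)) ?_ Set.subset_union_left
      have := XE k
      rwa [Xa] at this
    · refine touch_mono (tAB k j.1) ?_ Set.subset_union_right
      have := XE k
      rwa [Xn k h] at this
  let M : Fin 3 ⊕ {j : Fin 3 // j ≠ b} → Set V := fun k =>
    match k with
    | Sum.inl k => E k
    | Sum.inr j => U j.1 ∪ B j.1
  have hcard : ∀ c : Fin 3, Fintype.card {j : Fin 3 // j ≠ c} = 2 := by
    intro c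
    fin_cases c <;> rfl
  refine five_of (κ := Fin 3 ⊕ {j : Fin 3 // j ≠ b}) ?_ M ?_ ?_ ?_
  · rw [Fintype.card_sum, hcard, Fintype.card_fin]
  · rintro (k | j)
    · show (G.induce (E k)).Connected
      rcases hthree k with h | h | h <;> subst h
      · rw [Ex]
        exact conn_union (cX _) cP (touch_symm (tX P hP _ px))
      · rw [Ey]
        exact conn_union (cX _) cQ (touch_symm (tX Q hQ _ qy))
      · rw [Ez]
        exact cX _
    · exact conn_union (cU j.1) (cB j.1) (tUB j.1)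
  · rintro (k | j) (k' | j') hne
    · show Disjoint (E k) (E k')
      have hk : k ≠ k' := fun h => hne (by rw [h])
      rcases hthree k with h | h | h <;> rcases hthree k' with h' | h' | h' <;>
        rw [h, h'] <;> rw [h, h'] at hk <;>
        first
        | exact absurd rfl hk
        | exact exy
        | exact exy.symm
        | exact exz
        | exact exz.symm
        | exact eyz
        | exact eyz.symm
    · exact EUB k j'
    · exact (EUB k' j).symm
    · have hjj : j.1 ≠ j'.1 := fun h => hne (by rw [Subtype.ext h])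
      show Disjoint (U j.1 ∪ B j.1) (U j'.1 ∪ B j'.1)
      rw [Set.disjoint_union_left, Set.disjoint_union_right, Set.disjoint_union_right]
      exact ⟨⟨dU _ _ hjj, (dAB a j'.1).mono_left (hU j.1)⟩,
        (dAB a j.1).symm.mono_right (hU j'.1), dB _ _ hjj⟩
  · rintro (k | j) (k' | j') hne
    · show Touch G (E k) (E k')
      have hk : k ≠ k' := fun h => hne (by rw [h])
      rcases hthree k with h | h | h <;> rcases hthree k' with h' | h' | h' <;>
        rw [h, h'] <;> rw [h, h'] at hk <;>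
        first
        | exact absurd rfl hk
        | exact txy
        | exact touch_symm txy
        | exact txz
        | exact touch_symm txz
        | exact tyz
        | exact touch_symm tyz
    · exact tEUB k j'
    · exact touch_symm (tEUB k' j)
    · exact touch_mono (tU j.1 j'.1 (fun h => hne (by rw [Subtype.ext h])))
        Set.subset_union_left Set.subset_union_left

end

end Vale.Agent.P235.K5.W.H262
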