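import Vale.Agent.P235.K5.W.H262.Tri5
import Vale.Agent.P235.K5.W.H531.Front

/-!
# Wagner's step, rows [TT] and [TF] in the letters of `W/H531/Front.lean` (`PureM`) and of the
trichotomy `W/H246/Touch.lean`
-/

set_option autoImplicit false

namespace Vale.Agent.P235.K5.W.H262

open SimpleGraph Vale.Agent.P235.H134
open Vale.Agent.P235.K5.W.H531 (Con Tch PureM)

variable {V : Type} {G : SimpleGraph V}

/-- `X` splits into two connected sets, each touching two of the `B j` -/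
def FatP (G : SimpleGraph V) (X : Set V) (B : Fin 3 → Set V) : Prop :=
  ∃ P Q : Set V, P ∪ Q = X ∧ Disjoint P Q ∧ Con G P ∧ Con G Q ∧
    (∃ i j, i ≠ j ∧ Tch G P (B i) ∧ Tch G P (B j)) ∧
    (∃ i j, i ≠ j ∧ Tch G Q (B i) ∧ Tch G Q (B j))

/-- `X` is a triangle of connected sets, each touching exactly one of the `B j` -/
def TriP (G : SimpleGraph V) (X : Set V) (B : Fin 3 → Set V) : Prop :=
  ∃ Y : Fin 3 → Set V, (⋃ i, Y i) = X ∧ (∀ i j, i ≠ j → Disjoint (Y i) (Y j)) ∧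
    (∀ i, Con G (Y i)) ∧ (∀ i j, i ≠ j → Tch G (Y i) (Y j)) ∧ ∀ i j, Tch G (Y j) (B i) ↔ i = j

/-- **[TT]** -/
theorem tt {A B : Fin 3 → Set V} (hM : PureM G A B) {a b : Fin 3} (hA : TriP G (A a) B)
    (hB : TriP G (B b) A) : IsMinor (⊤ : SimpleGraph (Fin 5)) G := by
  obtain ⟨U, hU, dU, cU, tU, oU⟩ := hA
  obtain ⟨W, hW, dW, cW, tW, oW⟩ := hB
  obtain ⟨μ, h1, h2, h3⟩ := tri_tri A B hM.cA hM.cB hM.dA hM.dB hM.dAB hM.tch a b U W
    (fun j => hU ▸ Set.subset_iUnion U j) cU dU tU hU.ge (fun j j' h => ((oU j' j).1 h).symm)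
    (fun j => hW ▸ Set.subset_iUnion W j) cW dW tW hW.ge (fun j j' h => ((oW j' j).1 h).symm)
  exact ⟨μ, h1, h2, fun a b hab => h3 a b hab⟩

/-- **[TF]** -/
theorem tf {A B : Fin 3 → Set V} (hM : PureM G A B) {a b : Fin 3} (hA : TriP G (A a) B)
    (hB : FatP G (B b) A) : IsMinor (⊤ : SimpleGraph (Fin 5)) G := by
  obtain ⟨U, hU, dU, cU, tU, oU⟩ := hA
  obtain ⟨P, Q, hPQ, dPQ, cP, cQ, fP, fQ⟩ := hB
  obtain ⟨μ, h1, h2, h3⟩ := tri_fat A B hM.cA hM.cB hM.dA hM.dB hM.dAB hM.tch a b U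
    (fun j => hU ▸ Set.subset_iUnion U j) cU dU tU hU.ge (fun j j' h => ((oU j' j).1 h).symm)
    P Q (hPQ ▸ Set.subset_union_left) (hPQ ▸ Set.subset_union_right) hPQ.ge dPQ cP cQ fP fQ
  exact ⟨μ, h1, h2, fun a b hab => h3 a b hab⟩

/-- **[TF]**, the other parity -/
theorem ft {A B : Fin 3 → Set V} (hM : PureM G A B) {a b : Fin 3} (hA : FatP G (A a) B)
    (hB : TriP G (B b) A) : IsMinor (⊤ : SimpleGraph (Fin 5)) G :=
  tf hM.flip hB hA

end Vale.Agent.P235.K5.W.H262
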