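import Vale.Agent.P235.K5.W.H262.TT
import Vale.Agent.P235.K5.W.H246.Touch
import Vale.Agent.P235.K5.H521.FatFin
import Vale.Agent.P235.K5.H910.Cut3
import Vale.Agent.P235.K5.H863.V8Fin

/-!
# Theorem W (the step of Wagner's theorem)

A 3-connected finite graph with a `K_{3,3}` minor and no `K_5` minor has three vertices whose
removal leaves at least three components, or is the Wagner graph `V_8` (eight vertices and no
triangle).
-/

set_option autoImplicit false

namespace Vale.Agent.P235.K5.W.H262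

open SimpleGraph Vale.Agent.P235.H134 Vale.Agent.P235.H56
open Vale.Agent.P235.K5.W.H531 (Con Tch PureM Cut3)

variable {V : Type} {G : SimpleGraph V}

/-- `X` has a hub -/
def HubP (G : SimpleGraph V) (X : Set V) (B : Fin 3 → Set V) : Prop :=
  ∃ h ∈ X, ∀ C ⊆ X, h ∉ C → Con G C → ∀ i j, Tch G C (B i) → Tch G C (B j) → i = j

theorem trich [Finite V] {X : Set V} (hX : Con G X) (B : Fin 3 → Set V)
    (hB : ∀ i, Tch G X (B i)) : FatP G X B ∨ TriP G X B ∨ HubP G X B :=
  H246.trichotomy hX B hB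

/-- a pure model and no `K_5` minor: a cut or a `V_8`-model -/
theorem core [Finite V] {A B : Fin 3 → Set V} (hM : PureM G A B)
    (h5 : ¬ IsMinor (⊤ : SimpleGraph (Fin 5)) G) :
    Cut3 G ∨ Vale.Agent.P235.K5.H521.V8Model G := by
  by_cases hA : ∀ i, HubP G (A i) B
  · left
    exact Vale.Agent.P235.K5.H910.cut3 A B hM.cov hM.dA hM.dB hM.dAB hM.pA hM.pB hM.cB hA
  by_cases hB : ∀ j, HubP G (B j) A
  · left
    exact Vale.Agent.P235.K5.H910.cut3' A B hM.cov hM.dA hM.dB hM.dAB hM.pA hM.pB hM.cA hB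
  rw [not_forall] at hA hB
  obtain ⟨a, ha⟩ := hA
  obtain ⟨b, hb⟩ := hB
  have h1 : FatP G (A a) B ∨ TriP G (A a) B := by
    rcases trich (hM.cA a) B (hM.tch a) with h | h | h
    · exact Or.inl h
    · exact Or.inr h
    · exact absurd h ha
  have h2 : FatP G (B b) A ∨ TriP G (B b) A := by
    rcases trich (hM.cB b) A (fun i => (hM.tch i b).symm) with h | h | h
    · exact Or.inl h
    · exact Or.inr h
    · exact absurd h hb
  rcases h1 with h1 | h1
  · rcases h2 with h2 | h2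
    · obtain ⟨C, D, e1, d1, c1, c1', f1, f1'⟩ := h1
      obtain ⟨P, Q, e2, d2, c2, c2', f2, f2'⟩ := h2
      have hMod : Vale.Agent.P235.K5.H521.Mod G A B :=
        ⟨hM.cA, hM.cB, hM.dA, hM.dB, hM.dAB, hM.cov, hM.tch⟩
      rcases Vale.Agent.P235.K5.H521.fat hMod (i := a) (j := b) (C := C) (D := D) (P := P)
        (Q := Q) ⟨e1.symm, d1, c1, c1'⟩ ⟨e2.symm, d2, c2, c2'⟩ f1 f1' f2 f2' with h | h
      · exact absurd h h5
      · exact Or.inr h
    · exact absurd (ft hM h1 h2) h5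
  · rcases h2 with h2 | h2
    · exact absurd (tf hM h1 h2) h5
    · exact absurd (tt hM h1 h2) h5

theorem va_tri : ∀ a b c : Fin 8, H863.va a b = true → H863.va b c = true →
    ¬ H863.va a c = true := by
  decide

/-- a `V_8`-model in a 3-connected graph without `K_5` minor -/
theorem v8_end [Finite V] (h3 : Conn3 G) (h5 : ¬ IsMinor (⊤ : SimpleGraph (Fin 5)) G)
    (h : Vale.Agent.P235.K5.H521.V8Model G) :
    Nat.card V = 8 ∧ ∀ x y z, G.Adj x y → G.Adj y z → ¬ G.Adj x z := by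
  obtain ⟨p, hc, hd, hu, ht⟩ := h
  have hMod : H863.Mod G p := by
    refine ⟨hc, hd, fun i j hij => ?_⟩
    unfold H863.va at hij
    rw [Bool.or_eq_true, Bool.or_eq_true, beq_iff_eq, beq_iff_eq, beq_iff_eq] at hij
    rcases hij with (e | e) | e
    · rw [e]
      exact (ht i).1
    · rw [e]
      have := (ht j).1
      obtain ⟨x, hx, y, hy, hxy⟩ := this
      exact ⟨y, hy, x, hx, hxy.symm⟩
    · rw [e]
      exact (ht i).2
  refine ⟨H863.wV8_card h3 h5 hMod hu, ?_⟩
  obtain ⟨z, -, hz, hadj⟩ := H863.wV8 h3 h5 hMod hu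
  intro x y w hxy hyw hxw
  obtain ⟨a, rfl⟩ := hz.2 x
  obtain ⟨b, rfl⟩ := hz.2 y
  obtain ⟨c, rfl⟩ := hz.2 w
  exact va_tri a b c ((hadj a b).1 hxy) ((hadj b c).1 hyw) ((hadj a c).1 hxw)

/-- a graph with a `K_{3,3}` minor has at least four vertices -/
theorem four_le [Finite V] (h : IsMinor K33 G) : 4 ≤ Nat.card V := by
  obtain ⟨μ, hc, hd, -⟩ := h
  have hne : ∀ a, ∃ x, x ∈ μ a := fun a => by
    obtain ⟨x⟩ := (hc a).nonempty
    exact ⟨x.1, x.2⟩
  choose r hr using hne
  have hinj : Function.Injective r := by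
    intro a b hab
    by_contra hne
    exact Set.disjoint_left.1 (hd a b hne) (hr a) (hab ▸ hr b)
  have := Nat.card_le_card_of_injective r hinj
  have h6 : Nat.card (Fin 3 ⊕ Fin 3) = 6 := by
    rw [Nat.card_sum, Nat.card_eq_fintype_card, Fintype.card_fin]
  omega

/-- **THEOREM W.** -/
theorem theoremW [Finite V] (h3 : Conn3 G) (h33 : IsMinor K33 G)
    (h5 : ¬ IsMinor (⊤ : SimpleGraph (Fin 5)) G) :
    Cut3 G ∨ (Nat.card V = 8 ∧ ∀ x y z, G.Adj x y → G.Adj y z → ¬ G.Adj x z) := by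
  rcases H531.front (H531.conn3_preconnected h3 (four_le h33)) h5 h33 with h | ⟨A, B, hM⟩
  · exact Or.inl h
  · rcases core hM h5 with h | h
    · exact Or.inl h
    · exact Or.inr (v8_end h3 h5 h)

end Vale.Agent.P235.K5.W.H262
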